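import Vale.Agent.P183M.IF2
import Vale.Agent.P183M.B1
import Vale.Agent.P183K.Lift.P3
import Vale.Agent.P183BD.BNG
import Vale.Agent.P183AU.NF

/-!
End type passes to the factors of a twisted tensor product.
-/

set_option autoImplicit false
set_option linter.all false

namespace Vale.Agent.P183ET

open Matrix Subgroup Vale.Agent.P183M Vale.Agent.P183NK

lemma exists_aut {p : ℕ} [Fact p.Prime] {F : Type} [Field F] (a b : F →+* kk p) :
    ∃ φ : kk p →+* kk p, φ.comp a = b := by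
  haveI : CharP F p := (a.charP_iff_charP p).2 inferInstance
  letI : Algebra (ZMod p) F := ZMod.algebra _ p
  letI : Algebra F (kk p) := a.toAlgebra
  haveI : IsScalarTower (ZMod p) F (kk p) := IsScalarTower.of_algebraMap_eq' (RingHom.ext_zmod _ _)
  haveI : Algebra.IsAlgebraic F (kk p) := Algebra.IsAlgebraic.tower_top (K := ZMod p) F
  obtain ⟨φ, hφ⟩ := IsAlgClosed.surjective_domRestrict_of_isAlgebraic (K := ZMod p) (L := F)
    (M := kk p) (E := kk p) ⟨b, fun r => DFunLike.congr_fun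
      (RingHom.ext_zmod (b.comp (algebraMap (ZMod p) F)) (algebraMap (ZMod p) (kk p))) r⟩
  exact ⟨φ.toRingHom, RingHom.ext fun x => DFunLike.congr_fun hφ x⟩

section
variable {G : Type} [Group G] {k : Type} [CommRing k]

lemma ai_of_map {n d : ℕ} {τ : G →* Matrix (Fin n) (Fin n) k} (h : AI τ)
    {τ' : G →* Matrix (Fin d) (Fin d) k}
    (Φ : Matrix (Fin n) (Fin n) k →ₗ[k] Matrix (Fin d) (Fin d) k) (h1 : Function.Surjective Φ)
    (h2 : ∀ g, ∃ c : k, Φ (τ g) = c • τ' g) : AI τ' := by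
  rw [AI, eq_top_iff]
  intro M _
  obtain ⟨M, rfl⟩ := h1 M
  refine h.ind (P := fun M => Φ M ∈ Submodule.span k (Set.range τ')) (fun g => ?_) ?_ ?_ ?_ M
  · obtain ⟨c, hc⟩ := h2 g
    rw [hc]
    exact Submodule.smul_mem _ _ (Submodule.subset_span ⟨g, rfl⟩)
  · rw [map_zero]
    exact zero_mem _
  · intro x y hx hy
    rw [map_add]
    exact add_mem hx hy
  · intro c x hx
    rw [map_smul]
    exact Submodule.smul_mem _ _ hx

variable {A I : Type} [Fintype A] [DecidableEq A]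

lemma prod_update (x : A → I → k) (α : A → I) (θ : A) (i : I) :
    ∏ t, x t (Function.update α θ i t) = x θ i * ∏ t ∈ Finset.univ.erase θ, x t (α t) := by
  rw [← Finset.mul_prod_erase _ _ (Finset.mem_univ θ), Function.update_self]
  congr 1
  exact Finset.prod_congr rfl fun t ht => by rw [Function.update_of_ne (Finset.ne_of_mem_erase ht)]

lemma kr_update (M : A → Matrix I I k) (α : A → I) (θ : A) (i j : I) :
    kr M (Function.update α θ i) (Function.update α θ j) =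
      M θ i j * ∏ t ∈ Finset.univ.erase θ, M t (α t) (α t) := by
  rw [kr, of_apply, ← Finset.mul_prod_erase _ _ (Finset.mem_univ θ), Function.update_self,
    Function.update_self]
  congr 1
  exact Finset.prod_congr rfl fun t ht => by
    rw [Function.update_of_ne (Finset.ne_of_mem_erase ht),
      Function.update_of_ne (Finset.ne_of_mem_erase ht)]

lemma kr_pure [Fintype I] (M : A → Matrix I I k) (x : A → I → k) :
    kr M *ᵥ (fun α => ∏ t, x t (α t)) = fun α => ∏ t, (M t *ᵥ x t) (α t) := by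
  funext α
  simp only [mulVec, dotProduct, kr, of_apply, ← Finset.prod_mul_distrib]
  rw [Finset.prod_univ_sum, Fintype.piFinset_univ]

end

section
variable {p : ℕ} [Fact p.Prime] {G E : Type} [Group G] [Group E] {R F0 : Type} [CommRing R]
  [Field F0] {d : ℕ} {D : Dat G R F0 d} {n : ℕ} {τ : G →* Matrix (Fin n) (Fin n) (kk p)}

lemma ai_mem (V : TV D τ) {ψ : E →* G} (h : AI (τ.comp ψ)) (θ : V.A) :
    AI (tw θ.1 (D.ρ.comp ψ)) := by
  classical
  let f : Fin d → V.A → Fin d := Function.update (fun _ => D.z) θ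
  let Φ : Matrix (Fin n) (Fin n) (kk p) →ₗ[kk p] Matrix (Fin d) (Fin d) (kk p) :=
    { toFun := fun X => (V.Q * X * V.P).submatrix f f
      map_add' := fun X Y => by rw [Matrix.mul_add, Matrix.add_mul]; rfl
      map_smul' := fun c X => by rw [Matrix.mul_smul, Matrix.smul_mul]; rfl }
  have h1 : ∀ M : V.A → Matrix (Fin d) (Fin d) (kk p), Φ (V.P * kr M * V.Q) =
      (∏ t ∈ Finset.univ.erase θ, M t D.z D.z) • M θ := fun M => by
    ext i j
    show (V.Q * (V.P * kr M * V.Q) * V.P) (f i) (f j) = _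
    rw [← Matrix.mul_assoc, ← Matrix.mul_assoc, V.qp, Matrix.one_mul, Matrix.mul_assoc, V.qp,
      Matrix.mul_one, kr_update, mul_comm]
    rfl
  refine ai_of_map h Φ (fun N => ⟨V.P * kr (Function.update (fun _ => 1) θ N) * V.Q, ?_⟩)
    fun g => ⟨_, (congrArg Φ (V.eq (ψ g))).trans (h1 _)⟩
  rw [h1, Function.update_self, Finset.prod_eq_one, one_smul]
  intro t ht
  rw [Function.update_of_ne (Finset.ne_of_mem_erase ht), one_apply_eq]

lemma ai_sigma (c : CD p D) {ψ : E →* G} {k : Type} [Field k] {θ : R →+* k}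
    (h : AI (tw θ (D.ρ.comp ψ))) : AI (tw (θ.comp (D.σ : R →+* R)) (D.ρ.comp ψ)) := by
  have hJ : ∀ g, ((D.ρ g).map D.σ)ᵀ * D.J * D.ρ g = D.J := fun g => by
    ext a b
    rw [← D.β_ee a b, ← c.inv g, Dat.β, Matrix.mul_assoc, Matrix.mul_apply, dotProduct]
    refine Finset.sum_congr rfl fun i _ => ?_
    rw [mulVec_ee, mulVec_mulVec, mulVec_ee]
    rfl
  have h1 : ∀ g, (D.ρ g).map D.σ = (D.J⁻¹)ᵀ * (D.ρ g⁻¹)ᵀ * D.Jᵀ := fun g => by
    rw [← transpose_mul, ← transpose_mul, ← transpose_transpose ((D.ρ g).map D.σ)]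
    congr 1
    conv_rhs => rw [← hJ g]
    rw [Matrix.mul_assoc, ← Matrix.mul_assoc (D.ρ g), ← map_mul, mul_inv_cancel, map_one,
      Matrix.one_mul, hJ g, Matrix.mul_assoc, mul_nonsing_inv _ c.nondeg, Matrix.mul_one]
  have i1 : ((D.J⁻¹)ᵀ).map θ * (D.Jᵀ).map θ = 1 := by
    rw [← Matrix.map_mul, ← transpose_mul, mul_nonsing_inv _ c.nondeg, transpose_one,
      Matrix.map_one _ (map_zero θ) (map_one θ)]
  let Φ : Matrix (Fin d) (Fin d) k →ₗ[k] Matrix (Fin d) (Fin d) k :=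
    { toFun := fun X => ((D.J⁻¹)ᵀ).map θ * X * (D.Jᵀ).map θ
      map_add' := fun X Y => by rw [Matrix.mul_add, Matrix.add_mul]
      map_smul' := fun c X => by rw [Matrix.mul_smul, Matrix.smul_mul]; rfl }
  refine ai_of_map h.dl Φ (fun N => ⟨(D.Jᵀ).map θ * N * ((D.J⁻¹)ᵀ).map θ, ?_⟩) fun g => ⟨1, ?_⟩
  · show ((D.J⁻¹)ᵀ).map θ * (_ * N * _) * (D.Jᵀ).map θ = N
    rw [← Matrix.mul_assoc, ← Matrix.mul_assoc, i1, Matrix.one_mul, Matrix.mul_assoc, i1,
      Matrix.mul_one]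
  · show ((D.J⁻¹)ᵀ).map θ * ((D.ρ (ψ g⁻¹)).map θ)ᵀ * (D.Jᵀ).map θ =
      (1 : k) • ((D.ρ (ψ g)).map D.σ).map θ
    rw [one_smul, h1, Matrix.map_mul, Matrix.map_mul, map_inv]
    rfl

lemma ai_all (c : CD p D) {ψ : E →* G} {θ : R →+* kk p} (h : AI (tw θ (D.ρ.comp ψ)))
    (θ' : R →+* kk p) : AI (tw θ' (D.ρ.comp ψ)) := by
  obtain ⟨φ, hφ⟩ := exists_aut (θ.comp D.ι) (θ'.comp D.ι)
  have h1 : AI (tw (φ.comp θ) (D.ρ.comp ψ)) := h.tw φ
  rcases c.hom_cases (θ := φ.comp θ) (θ' := θ') hφ with rfl | rfl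
  · exact h1
  · exact ai_sigma c h1

end

lemma nd_mem {p : ℕ} {G : Type} [Group G] [Finite G] {F0 : Type} [Field F0] {d : ℕ} {R : Type}
    [CommRing R] {D : Dat G R F0 d} (h : Kind p R D) (hm : 5 ≤ D.m) : D.EndP (LS D.ρ (ee D.z)) := by
  intro i hi h0 h1
  cases h with
  | f h => exact (P183K.Lift.CDF.nd_mem_iff h (by omega) hi).2 h0.ne'
  | l h =>
    have := (P183K.Lift.CDL.nd_mem_iff h hi (ε := 1) (Or.inr rfl) (Or.inr rfl)).2
      ⟨fun _ => h0.ne', fun _ => (h1 h.il).ne⟩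
    rwa [one_smul] at this

theorem et : ET := by
  classical
  rintro p _ G _ T T' C C' ψ n τ V hm - hP ⟨θ, hθ⟩ hAI
  have c := C.kind.cd
  have c' := C'.kind.cd
  have hθA := ai_mem V hAI ⟨θ, hθ⟩
  refine ⟨ai_all c' hθA, fun v hv hvU hE => ?_⟩
  obtain ⟨g, hg⟩ := P183BD.exists_conj c'.sba.toSBP c.sba.toSBP ψ
  refine ⟨g, hg, ?_⟩
  set w := C'.D.ρ g *ᵥ ee C'.D.z with hw
  have hwU : ∀ u ∈ C.D.U, C'.D.ρ (ψ u) *ᵥ w = w := fun u hu => by
    rw [hw, ← mul_vec, show ψ u * g = g * (g⁻¹ * ψ u * g) by group, mul_vec, c'.fix_z (hg u hu)]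
  have hw0 : ∀ η : C'.R →+* kk p, (fun a => η (w a)) ≠ 0 := fun η e => by
    have := map_mulVec' η (C'.D.ρ g⁻¹) w
    rw [e, mulVec_zero, hw, inv_mul_vec] at this
    simpa [ee_self] using congrFun this C'.D.z
  choose α hα using fun η : V.A => Function.ne_iff.1 (hw0 η.1)
  let pu : (Fin C'.d → C'.R) → (V.A → Fin C'.d) → kk p := fun x β => ∏ t : V.A, t.1 (x (β t))
  have hτ : ∀ h x, τ h *ᵥ (V.P *ᵥ pu x) = V.P *ᵥ pu (C'.D.ρ h *ᵥ x) := fun h x => by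
    rw [V.eq, mulVec_mulVec, Matrix.mul_assoc, V.qp, Matrix.mul_one, ← mulVec_mulVec,
      kr_pure _ fun (t : V.A) a => t.1 (x a)]
    simp only [map_mulVec']
    rfl
  have hPi : ∀ x y, V.P *ᵥ x = V.P *ᵥ y → x = y := fun x y e => by
    rw [← one_mulVec x, ← V.qp, ← mulVec_mulVec, e, mulVec_mulVec, V.qp, one_mulVec]
  obtain ⟨c₀, hc₀⟩ := fix_vec c.sba hAI hv hvU (x := V.P *ᵥ pu w) fun u hu => by
    show τ (ψ u) *ᵥ _ = _
    rw [hτ, hwU u hu]
  have hK : ∏ t ∈ Finset.univ.erase (⟨θ, hθ⟩ : V.A), t.1 (w (α t)) ≠ 0 :=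
    Finset.prod_ne_zero_iff.2 fun t _ => hα t
  have hE1 : C.D.EndP (LS (tw θ (C'.D.ρ.comp ψ)) fun a => θ (w a)) := fun i hi h0 h1 => by
    obtain ⟨e, he⟩ := hE i hi h0 h1
    have e1 : pu (C'.D.ρ (ψ (C.D.nd i)) *ᵥ w) = (e : kk p) • pu w := hPi _ _ (by
      rw [← hτ, mulVec_smul, hc₀, mulVec_smul, smul_comm]
      exact congrArg _ he)
    set x := C'.D.ρ (ψ (C.D.nd i)) *ᵥ w
    have e2 : ∀ a, θ (x a) * ∏ t ∈ Finset.univ.erase (⟨θ, hθ⟩ : V.A), t.1 (x (α t)) =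
        e * (θ (w a) * ∏ t ∈ Finset.univ.erase (⟨θ, hθ⟩ : V.A), t.1 (w (α t))) := fun a => by
      have := congrFun e1 (Function.update α ⟨θ, hθ⟩ a)
      rwa [Pi.smul_apply, smul_eq_mul, show pu x _ = _ from prod_update (fun (t : V.A) a => t.1 (x a)) _ _ _,
        show pu w _ = _ from prod_update (fun (t : V.A) a => t.1 (w a)) _ _ _] at this
    have hK' : ∏ t ∈ Finset.univ.erase (⟨θ, hθ⟩ : V.A), t.1 (x (α t)) ≠ 0 := fun e0 => by
      have := e2 (α ⟨θ, hθ⟩)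
      rw [e0, mul_zero] at this
      exact mul_ne_zero e.ne_zero (mul_ne_zero (hα ⟨θ, hθ⟩) hK) this.symm
    refine ⟨e * Units.mk0 _ hK * (Units.mk0 _ hK')⁻¹, ?_⟩
    show (C'.D.ρ (ψ (C.D.nd i))).map θ *ᵥ _ = _
    rw [map_mulVec']
    funext a
    rw [Pi.smul_apply, smul_eq_mul, Units.val_mul, Units.val_mul, Units.val_inv_eq_inv_val,
      Units.val_mk0, Units.val_mk0]
    field_simp
    linear_combination e2 a
  have hJ : ∀ (x : Fin C'.d → C'.R) a, C'.D.β x (C'.D.J⁻¹ *ᵥ ee a) = C'.D.σ (x a) := fun x a => by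
    rw [Dat.β, mulVec_mulVec, mul_nonsing_inv _ c'.nondeg, one_mulVec, ee, dotProduct_single,
      mul_one]
  have hdot : ∀ x h, C'.D.bv θ x ⬝ᵥ (tw θ (C'.D.ρ.comp ψ) h *ᵥ fun a => θ (w a)) =
      θ (C'.D.β x (C'.D.ρ (ψ h) *ᵥ w)) := fun x h => by
    rw [← Dat.bv_dot, ← map_mulVec' θ (C'.D.ρ (ψ h))]
    rfl
  obtain ⟨cc, -, κ, -, hκ⟩ := hP _ _ (fun a => θ (w a)) (C'.D.bv θ w) hθA (hw0 θ)
    (fun e0 => by
      have := C'.D.bv_dot θ w (C'.D.ρ g *ᵥ (C'.D.J⁻¹ *ᵥ ee C'.D.z))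
      rw [e0, zero_dotProduct, hw, c'.inv, hJ, ee_self, map_one, map_one] at this
      exact zero_ne_one this)
    (fun u hu => by
      show (C'.D.ρ (ψ u)).map θ *ᵥ _ = _
      rw [map_mulVec', hwU u hu])
    (fun u hu => by
      funext a
      have e1 := C'.D.bv_dot θ w (C'.D.ρ (ψ u) *ᵥ ee a)
      have e2 := C'.D.bv_dot θ w (ee a)
      rw [← map_mulVec', map_ee, dotProduct_mulVec, c'.inv'', ← map_inv, hwU _ (inv_mem hu),
        ← e2, map_ee, ee, dotProduct_single, dotProduct_single, mul_one, mul_one] at e1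
      exact e1) hE1
  intro i hi h0 h1
  obtain ⟨r, hr⟩ := nd_mem C.kind hm i hi h0 h1
  obtain ⟨e, he⟩ := hE1 i hi h0 h1
  set N := C.D.nd i
  have l0 : C'.D.bv θ (C'.D.ρ (ψ N) *ᵥ w) - chi cc (C.D.σ r) • C'.D.bv θ w = 0 :=
    hθA.eq_zero (hw0 θ) fun h => by
      rw [sub_dotProduct, smul_dotProduct, hκ, hdot, c'.inv', ← map_inv, ← mul_vec, ← map_mul, ← hdot,
        hκ, mul_vec, ← c.inv', hr, C.D.β_smul_left, P183K.Lift.chi_mul, smul_eq_mul]
      ring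
  set x := C'.D.ρ g⁻¹ *ᵥ (C'.D.ρ (ψ N) *ᵥ w) with hx
  have hx0 : ∀ a, a ≠ C'.D.z → x a = 0 := fun a ha => by
    refine P183AU.zero_of c' θ ?_ ?_
    · have e1 : (C'.D.ρ (ψ N)).map θ *ᵥ (fun a => θ (w a)) = (e : kk p) • fun a => θ (w a) := he
      have e2 := map_mulVec' θ (C'.D.ρ g⁻¹) (C'.D.ρ (ψ N) *ᵥ w)
      rw [← map_mulVec' θ (C'.D.ρ (ψ N)), e1, mulVec_smul, map_mulVec', hw, inv_mul_vec, ← hw,
        ← hx] at e2
      rw [← congrFun e2 a, Pi.smul_apply, ee_ne ha, map_zero, smul_zero]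
    · have e1 := congrArg (· ⬝ᵥ fun b => θ ((C'.D.ρ g *ᵥ (C'.D.J⁻¹ *ᵥ ee a)) b)) l0
      simp only [sub_dotProduct, smul_dotProduct, Dat.bv_dot, zero_dotProduct] at e1
      rwa [c'.inv'', ← hx, hw, c'.inv, hJ, hJ, ee_ne ha, map_zero, map_zero, smul_zero,
        sub_zero] at e1
  have e3 : x = x C'.D.z • ee C'.D.z := funext fun a => by
    by_cases ha : a = C'.D.z
    · rw [ha, Pi.smul_apply, ee_self, smul_eq_mul, mul_one]
    · rw [hx0 a ha, Pi.smul_apply, ee_ne ha, smul_zero]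
  have e4 : C'.D.ρ (ψ N) *ᵥ w = x C'.D.z • w := by
    rw [← mul_inv_vec C'.D.ρ g (C'.D.ρ (ψ N) *ᵥ w), ← hx, e3, mulVec_smul, ← e3]
  have e5 : x C'.D.z * (C'.D.ρ g⁻¹ *ᵥ (C'.D.ρ (ψ N)⁻¹ *ᵥ w)) C'.D.z = 1 := by
    rw [← smul_eq_mul, ← Pi.smul_apply, ← mulVec_smul, ← mulVec_smul, ← e4, inv_mul_vec, hw,
      inv_mul_vec, ee_self]
  exact ⟨(IsUnit.of_mul_eq_one _ e5).unit, e4⟩

end Vale.Agent.P183ET
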